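import Crest.Agent.N41.Exp.Weyl
import Crest.Agent.N41.Defs

-- ▼ part N41/Exp/Vaughan
section

/-!
# Row 41, module EXP, part 3 (helper98)
Convex sets of naturals, Vaughan's identity and type I sums.
-/

set_option autoImplicit false

open Finset Polynomial

namespace Crest.Agent.N41.Exp

/-- an interval of natural numbers -/
def Cvx (I : Finset ℕ) : Prop := ∀ x ∈ I, ∀ z ∈ I, ∀ y, x ≤ y → y ≤ z → y ∈ I

lemma cvx_Ioc (a b : ℕ) : Cvx (Ioc a b) := by
  intro x hx z hz y h1 h2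
  rw [mem_Ioc] at *; omega


lemma Cvx.filter_mul {I : Finset ℕ} (hI : Cvx I) (a b d : ℕ) :
    Cvx (I.filter (fun m => a < d * m ∧ d * m ≤ b)) := by
  intro x hx z hz y h1 h2
  rw [mem_filter] at *
  exact ⟨hI x hx.1 z hz.1 y h1 h2, lt_of_lt_of_le hx.2.1 (Nat.mul_le_mul_left d h1),
    le_trans (Nat.mul_le_mul_left d h2) hz.2.2⟩

lemma Cvx.filter_lt {I : Finset ℕ} (hI : Cvx I) (j : ℕ) : Cvx (I.filter (fun m => j < m)) := by
  intro x hx z hz y h1 h2
  rw [mem_filter] at *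
  exact ⟨hI x hx.1 z hz.1 y h1 h2, by omega⟩

/-- the Weyl inverse theorem over an interval of naturals -/
lemma WeylInv.nat {k C : ℕ} (hW : WeylInv k C) (P : ℝ[X]) (hP : P.natDegree ≤ k)
    (I : Finset ℕ) (hI : Cvx I) {N D : ℝ} (hD : 2 ≤ D) (hN : 0 < N) (hc : (I.card : ℝ) ≤ N)
    (hS : N ≤ D * ‖∑ n ∈ I, e (P.eval (n : ℝ))‖) :
    Appr (P.coeff k) (D ^ C) (D ^ C / N ^ k) := by
  rcases I.eq_empty_or_nonempty with rfl | hne
  · simp at hS; linarith
  have hIeq : I = Icc (I.min' hne) (I.max' hne) := by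
    ext x
    rw [mem_Icc]
    exact ⟨fun hx => ⟨I.min'_le x hx, I.le_max' x hx⟩,
      fun hx => hI _ (I.min'_mem hne) _ (I.max'_mem hne) x hx.1 hx.2⟩
  obtain ⟨lo, hi, hle, rfl⟩ : ∃ lo hi : ℕ, lo ≤ hi ∧ I = Icc lo hi :=
    ⟨_, _, I.min'_le _ (I.max'_mem hne), hIeq⟩
  refine hW P hP ((lo : ℤ) - 1) hi N D hD hN ?_ ?_
  · rw [Nat.card_Icc, Nat.cast_sub (by omega)] at hc
    push_cast at hc ⊢; linarith
  · convert hS using 3
    symm
    refine sum_bij' (fun n _ => (n : ℤ)) (fun n _ => n.toNat) ?_ ?_ ?_ ?_ ?_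
    · intro n hn; simp only [mem_Icc, mem_Ioc] at hn ⊢; omega
    · intro n hn; simp only [mem_Icc, mem_Ioc] at hn ⊢; omega
    · intro n _; simp
    · intro n hn; simp only [mem_Ioc] at hn; omega
    · intro n _; simp

/-- truncation of an arithmetic function -/
def trunc (f : ArithmeticFunction ℝ) (U : ℕ) : ArithmeticFunction ℝ :=
  ⟨fun n => if n ≤ U then f n else 0, by simp⟩

lemma trunc_apply (f : ArithmeticFunction ℝ) (U n : ℕ) :
    trunc f U n = if n ≤ U then f n else 0 := rfl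

/-- the Möbius function with real values -/
noncomputable def muR : ArithmeticFunction ℝ := (ArithmeticFunction.moebius : ArithmeticFunction ℝ)

/-- the constant function one on positive integers, with real values -/
noncomputable def zeR : ArithmeticFunction ℝ := (ArithmeticFunction.zeta : ArithmeticFunction ℝ)

lemma abs_muR_le (n : ℕ) : |muR n| ≤ 1 := by
  unfold muR
  rw [ArithmeticFunction.intCoe_apply]
  exact_mod_cast ArithmeticFunction.abs_moebius_le_one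

lemma zeR_apply {n : ℕ} (hn : n ≠ 0) : zeR n = 1 := by
  unfold zeR
  rw [ArithmeticFunction.natCoe_apply, ArithmeticFunction.zeta_apply_ne hn, Nat.cast_one]

/-- **Vaughan's identity** -/
lemma vaughan (U : ℕ) : ArithmeticFunction.vonMangoldt =
    trunc ArithmeticFunction.vonMangoldt U + trunc muR U * ArithmeticFunction.log -
      (trunc muR U * trunc ArithmeticFunction.vonMangoldt U) * zeR +
      (muR - trunc muR U) *
        ((ArithmeticFunction.vonMangoldt - trunc ArithmeticFunction.vonMangoldt U) * zeR) := by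
  have h1 : muR * zeR = 1 := ArithmeticFunction.coe_moebius_mul_coe_zeta
  have h2 : ArithmeticFunction.vonMangoldt * zeR = ArithmeticFunction.log :=
    ArithmeticFunction.vonMangoldt_mul_zeta
  rw [← h2]
  linear_combination
    (trunc ArithmeticFunction.vonMangoldt U - ArithmeticFunction.vonMangoldt) * h1

/-- sums of a Dirichlet convolution -/
lemma sum_conv (f g : ArithmeticFunction ℝ) (z : ℕ → ℂ) (a b : ℕ) :
    ∑ n ∈ Ioc a b, (((f * g) n : ℝ) : ℂ) * z n =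
      ∑ d ∈ Ioc 0 b, ((f d : ℝ) : ℂ) *
        ∑ m ∈ (Ioc 0 b).filter (fun m => a < d * m ∧ d * m ≤ b), ((g m : ℝ) : ℂ) * z (d * m) := by
  simp only [ArithmeticFunction.mul_apply, Complex.ofReal_sum, sum_mul, mul_sum]
  rw [sum_sigma', sum_sigma']
  refine sum_bij' (fun p _ => ⟨p.2.1, p.2.2⟩) (fun p _ => ⟨p.1 * p.2, (p.1, p.2)⟩) ?_ ?_ ?_ ?_ ?_
  · rintro ⟨n, d, m⟩ hp
    simp only [mem_sigma, mem_Ioc, mem_filter, Nat.mem_divisorsAntidiagonal] at hp ⊢
    obtain ⟨⟨h1, h2⟩, h3, h4⟩ := hp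
    subst h3
    have hd : 0 < d := Nat.pos_of_ne_zero (by rintro rfl; simp at h4)
    have hm : 0 < m := Nat.pos_of_ne_zero (by rintro rfl; simp at h4)
    exact ⟨⟨hd, le_trans (Nat.le_mul_of_pos_right d hm) h2⟩,
      ⟨hm, le_trans (Nat.le_mul_of_pos_left m hd) h2⟩, h1, h2⟩
  · rintro ⟨d, m⟩ hp
    simp only [mem_sigma, mem_Ioc, mem_filter, Nat.mem_divisorsAntidiagonal] at hp ⊢
    obtain ⟨⟨h1, _⟩, ⟨h3, _⟩, h5, h6⟩ := hp
    exact ⟨⟨h5, h6⟩, trivial, by omega⟩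
  · rintro ⟨n, d, m⟩ hp
    simp only [mem_sigma, Nat.mem_divisorsAntidiagonal] at hp
    obtain ⟨_, h3, _⟩ := hp
    subst h3; rfl
  · rintro ⟨d, m⟩ _
    rfl
  · rintro ⟨n, d, m⟩ hp
    simp only [mem_sigma, Nat.mem_divisorsAntidiagonal] at hp
    obtain ⟨_, h3, _⟩ := hp
    subst h3
    push_cast; ring

lemma log_eq_sum (m : ℕ) (hm : 1 ≤ m) :
    Real.log m = ∑ j ∈ Ico 1 m, (Real.log ((j + 1 : ℕ) : ℝ) - Real.log j) := by
  induction m, hm using Nat.le_induction with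
  | base => simp
  | succ m hm ih => rw [sum_Ico_succ_top hm, ← ih]; ring

/-- partial summation against the logarithm -/
lemma abel_log (z : ℕ → ℂ) {b : ℕ} (I : Finset ℕ) (hIb : I ⊆ Ioc 0 b) {B : ℝ}
    (hB : ∀ j, ‖∑ m ∈ I.filter (fun m => j < m), z m‖ ≤ B) :
    ‖∑ m ∈ I, ((Real.log m : ℝ) : ℂ) * z m‖ ≤ Real.log b * B := by
  rcases Nat.eq_zero_or_pos b with rfl | hb
  · have : I = ∅ := by simpa using hIb
    subst this; simp
  have h1 : ∑ m ∈ I, ((Real.log m : ℝ) : ℂ) * z m = ∑ j ∈ Ico 1 b,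
      ((Real.log ((j + 1 : ℕ) : ℝ) - Real.log j : ℝ) : ℂ) *
        ∑ m ∈ I.filter (fun m => j < m), z m := by
    simp only [mul_sum, sum_filter]
    rw [sum_comm]
    refine sum_congr rfl fun m hm => ?_
    have hm' := mem_Ioc.1 (hIb hm)
    rw [log_eq_sum m hm'.1, Complex.ofReal_sum, sum_mul]
    have h2 : Ico 1 m = (Ico 1 b).filter (fun j => j < m) := by
      ext j; simp only [mem_Ico, mem_filter]; omega
    rw [h2, sum_filter]
    refine sum_congr rfl fun j _ => ?_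
    split_ifs <;> simp
  rw [h1, log_eq_sum b hb, sum_mul]
  refine (norm_sum_le _ _).trans (sum_le_sum fun j hj => ?_)
  have hj1 : (1 : ℝ) ≤ j := by exact_mod_cast (mem_Ico.1 hj).1
  have h3 : 0 ≤ Real.log ((j + 1 : ℕ) : ℝ) - Real.log j :=
    sub_nonneg.2 (Real.log_le_log (by linarith) (by push_cast; linarith))
  rw [norm_mul, Complex.norm_real, Real.norm_eq_abs, abs_of_nonneg h3]
  exact mul_le_mul_of_nonneg_left (hB j) h3

lemma short_sum_le (f : ℕ → ℝ) (S : ℕ → ℂ) (b W : ℕ) {L B : ℝ} (hL : 0 ≤ L) (hB0 : 0 ≤ B)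
    (hf : ∀ d ∈ Ioc 0 b, |f d| ≤ L) (hfW : ∀ d, W < d → f d = 0)
    (hS : ∀ d, 1 ≤ d → d ≤ W → ‖S d‖ ≤ B) :
    ‖∑ d ∈ Ioc 0 b, ((f d : ℝ) : ℂ) * S d‖ ≤ W * (L * B) := by
  have h1 : ∑ d ∈ Ioc 0 b, ((f d : ℝ) : ℂ) * S d =
      ∑ d ∈ (Ioc 0 b).filter (fun d => d ≤ W), ((f d : ℝ) : ℂ) * S d := by
    rw [sum_filter]
    refine sum_congr rfl fun d _ => ?_
    split_ifs with h
    · rfl
    · rw [hfW d (by omega)]; simp
  rw [h1]
  refine (norm_sum_le _ _).trans ?_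
  calc ∑ d ∈ (Ioc 0 b).filter (fun d => d ≤ W), ‖((f d : ℝ) : ℂ) * S d‖
      ≤ ∑ _d ∈ (Ioc 0 b).filter (fun d => d ≤ W), L * B := by
        refine sum_le_sum fun d hd => ?_
        rw [mem_filter] at hd
        rw [norm_mul, Complex.norm_real, Real.norm_eq_abs]
        exact mul_le_mul (hf d hd.1) (hS d (mem_Ioc.1 hd.1).1 hd.2) (norm_nonneg _) hL
    _ = ((Ioc 0 b).filter (fun d => d ≤ W)).card * (L * B) := by rw [sum_const, nsmul_eq_mul]
    _ ≤ _ := by
        gcongr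
        calc ((Ioc 0 b).filter (fun d => d ≤ W)).card ≤ (Ioc 0 W).card := by
              refine card_le_card fun d hd => ?_
              rw [mem_filter, mem_Ioc] at hd
              exact mem_Ioc.2 ⟨hd.1.1, hd.2⟩
          _ = W := by simp

/-- convolutions with `Λ`-like pieces are bounded by the logarithm -/
lemma abs_conv_le_log (f g : ArithmeticFunction ℝ) (hf : ∀ n, |f n| ≤ 1)
    (hg : ∀ n, |g n| ≤ ArithmeticFunction.vonMangoldt n) (n : ℕ) :
    |(f * g) n| ≤ Real.log n := by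
  rw [ArithmeticFunction.mul_apply, ← ArithmeticFunction.vonMangoldt_sum,
    ← Nat.sum_divisorsAntidiagonal' (fun _ d => ArithmeticFunction.vonMangoldt d)]
  refine (abs_sum_le_sum_abs _ _).trans (sum_le_sum fun p _ => ?_)
  rw [abs_mul]
  calc |f p.1| * |g p.2| ≤ 1 * ArithmeticFunction.vonMangoldt p.2 :=
        mul_le_mul (hf _) (hg _) (abs_nonneg _) zero_le_one
    _ = _ := one_mul _

lemma abs_trunc_le (f : ArithmeticFunction ℝ) (U n : ℕ) : |trunc f U n| ≤ |f n| := by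
  rw [trunc_apply]; split_ifs <;> simp

lemma sub_trunc_apply (f : ArithmeticFunction ℝ) (U n : ℕ) :
    (f - trunc f U) n = if n ≤ U then 0 else f n := by
  rw [sub_eq_add_neg, ArithmeticFunction.add_apply, ArithmeticFunction.neg_apply, trunc_apply]
  split_ifs <;> simp

lemma abs_sub_trunc_le (f : ArithmeticFunction ℝ) (U n : ℕ) : |(f - trunc f U) n| ≤ |f n| := by
  rw [sub_trunc_apply]; split_ifs <;> simp

lemma trunc_mul_trunc_eq_zero (f g : ArithmeticFunction ℝ) (U d : ℕ) (hd : U * U < d) :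
    (trunc f U * trunc g U) d = 0 := by
  rw [ArithmeticFunction.mul_apply]
  refine sum_eq_zero fun p hp => ?_
  rw [trunc_apply, trunc_apply]
  have h1 := (Nat.mem_divisorsAntidiagonal.1 hp).1
  split_ifs with h2 h3
  · exact absurd (h1 ▸ Nat.mul_le_mul h2 h3) (by omega)
  · simp
  · simp
  · simp

lemma sub_trunc_mul_eq_zero (f g : ArithmeticFunction ℝ) (U n : ℕ) (hn : n ≤ U) :
    ((f - trunc f U) * g) n = 0 := by
  rw [ArithmeticFunction.mul_apply]
  refine sum_eq_zero fun p hp => ?_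
  have h1 := Nat.mem_divisorsAntidiagonal.1 hp
  have h2 : p.1 ≤ n := Nat.le_of_dvd (by omega) (Dvd.intro _ h1.1)
  rw [sub_trunc_apply, if_pos (by omega), zero_mul]

/-- the three "type I" pieces of Vaughan's identity -/
lemma typeI_bound (z : ℕ → ℂ) (hz : ∀ n, ‖z n‖ ≤ 1) (a b U : ℕ) (hU : 1 ≤ U) {L B : ℝ}
    (hL1 : 1 ≤ L) (hL : Real.log b ≤ L) (hB0 : 0 ≤ B)
    (hB : ∀ d, 1 ≤ d → d ≤ U * U → ∀ I : Finset ℕ, Cvx I → I ⊆ Ioc 0 b →
      ‖∑ m ∈ I, z (d * m)‖ ≤ B) :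
    ‖∑ n ∈ Ioc a b, (((trunc ArithmeticFunction.vonMangoldt U +
      trunc muR U * ArithmeticFunction.log -
      (trunc muR U * trunc ArithmeticFunction.vonMangoldt U) * zeR) n : ℝ) : ℂ) * z n‖ ≤
      U * L + 2 * (U * U * (L * B)) := by
  have hlog : ∀ d ∈ Ioc 0 b, Real.log d ≤ L := by
    intro d hd
    rw [mem_Ioc] at hd
    exact le_trans (Real.log_le_log (by exact_mod_cast hd.1) (by exact_mod_cast hd.2)) hL
  have hvm : ∀ n, |ArithmeticFunction.vonMangoldt n| = ArithmeticFunction.vonMangoldt n :=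
    fun n => abs_of_nonneg ArithmeticFunction.vonMangoldt_nonneg
  have hU1 : (1 : ℝ) ≤ U := by exact_mod_cast hU
  have h1 : ‖∑ n ∈ Ioc a b, ((trunc ArithmeticFunction.vonMangoldt U n : ℝ) : ℂ) * z n‖ ≤
      U * L := by
    have e1 : ∑ n ∈ Ioc a b, ((trunc ArithmeticFunction.vonMangoldt U n : ℝ) : ℂ) * z n =
        ∑ n ∈ Ioc 0 b, ((trunc ArithmeticFunction.vonMangoldt U n : ℝ) : ℂ) *
          (if a < n then z n else 0) := by
      have : Ioc a b = (Ioc 0 b).filter (fun n => a < n) := by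
        ext n; simp only [mem_Ioc, mem_filter]; omega
      rw [this, sum_filter]
      refine sum_congr rfl fun n _ => ?_
      split_ifs <;> simp
    rw [e1]
    have := short_sum_le (fun n => trunc ArithmeticFunction.vonMangoldt U n)
      (fun n => if a < n then z n else 0) b U (L := L) (B := 1) (by linarith) zero_le_one
      (fun d hd => (abs_trunc_le _ _ _).trans ((hvm d).le.trans
        (ArithmeticFunction.vonMangoldt_le_log.trans (hlog d hd))))
      (fun d hd => by rw [trunc_apply, if_neg (by omega)])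
      (fun d _ _ => by split_ifs; exacts [hz d, by simp])
    simpa using this
  have h2 : ‖∑ n ∈ Ioc a b, (((trunc muR U * ArithmeticFunction.log) n : ℝ) : ℂ) * z n‖ ≤
      U * U * (L * B) := by
    rw [sum_conv]
    refine (short_sum_le (fun n => trunc muR U n) _ b U (L := 1) (B := L * B) zero_le_one
      (by positivity) (fun d _ => (abs_trunc_le _ _ _).trans (abs_muR_le d))
      (fun d hd => by rw [trunc_apply, if_neg (by omega)]) (fun d hd1 hd2 => ?_)).trans ?_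
    · simp only [ArithmeticFunction.log_apply]
      refine (abel_log (fun m => z (d * m)) (b := b) _ (filter_subset _ _) fun j => ?_).trans
        (by gcongr)
      exact hB d hd1 (hd2.trans (Nat.le_mul_self U)) _
        (((cvx_Ioc 0 b).filter_mul a b d).filter_lt j)
        ((filter_subset _ _).trans (filter_subset _ _))
    · rw [one_mul]
      gcongr; nlinarith
  have h3 : ‖∑ n ∈ Ioc a b, ((((trunc muR U * trunc ArithmeticFunction.vonMangoldt U) * zeR) n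
      : ℝ) : ℂ) * z n‖ ≤ U * U * (L * B) := by
    rw [sum_conv]
    refine (short_sum_le _ _ b (U * U) (L := L) (B := B) (by linarith) hB0
      (fun d hd => (abs_conv_le_log _ _ (fun n => (abs_trunc_le _ _ _).trans (abs_muR_le n))
        (fun n => (abs_trunc_le _ _ _).trans (hvm n).le) d).trans (hlog d hd))
      (trunc_mul_trunc_eq_zero _ _ U) (fun d hd1 hd2 => ?_)).trans (by push_cast; rfl)
    have e1 : ∑ m ∈ (Ioc 0 b).filter (fun m => a < d * m ∧ d * m ≤ b),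
        ((zeR m : ℝ) : ℂ) * z (d * m) =
        ∑ m ∈ (Ioc 0 b).filter (fun m => a < d * m ∧ d * m ≤ b), z (d * m) := by
      refine sum_congr rfl fun m hm => ?_
      rw [zeR_apply (by have := (mem_Ioc.1 (mem_filter.1 hm).1).1; omega)]; simp
    rw [e1]
    exact hB d hd1 hd2 _ ((cvx_Ioc 0 b).filter_mul a b d) (filter_subset _ _)
  simp only [sub_eq_add_neg, ArithmeticFunction.add_apply, ArithmeticFunction.neg_apply,
    Complex.ofReal_add, Complex.ofReal_neg, add_mul, neg_mul, sum_add_distrib, sum_neg_distrib]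
  refine (norm_add_le _ _).trans ?_
  rw [norm_neg]
  linarith [norm_add_le
    (∑ n ∈ Ioc a b, ((trunc ArithmeticFunction.vonMangoldt U n : ℝ) : ℂ) * z n)
    (∑ n ∈ Ioc a b, (((trunc muR U * ArithmeticFunction.log) n : ℝ) : ℂ) * z n)]

end Crest.Agent.N41.Exp
end

-- ▼ part N41/Exp/TypeII
section

/-!
# Row 41, module EXP, part 4 (helper98)
Type II sums.
-/

set_option autoImplicit false

open Finset Polynomial

namespace Crest.Agent.N41.Exp

/-- Cauchy–Schwarz for bilinear forms -/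
lemma bilinear_cs (A B : Finset ℕ) (f g : ℕ → ℝ) (w : ℕ → ℕ → ℂ) {L : ℝ}
    (hf : ∀ m ∈ A, |f m| ≤ 1) (hg : ∀ n ∈ B, |g n| ≤ L) :
    ‖∑ m ∈ A, ((f m : ℝ) : ℂ) * ∑ n ∈ B, ((g n : ℝ) : ℂ) * w m n‖ ^ 2 ≤
      A.card * (L ^ 2 * ∑ n' ∈ B, ∑ n ∈ B, ‖∑ m ∈ A, w m n * (starRingEnd ℂ) (w m n')‖) := by
  have h1 : ‖∑ m ∈ A, ((f m : ℝ) : ℂ) * ∑ n ∈ B, ((g n : ℝ) : ℂ) * w m n‖ ≤
      ∑ m ∈ A, ‖∑ n ∈ B, ((g n : ℝ) : ℂ) * w m n‖ := by
    refine (norm_sum_le _ _).trans (sum_le_sum fun m hm => ?_)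
    rw [norm_mul, Complex.norm_real, Real.norm_eq_abs]
    exact mul_le_of_le_one_left (norm_nonneg _) (hf m hm)
  have h2 : ((∑ m ∈ A, ‖∑ n ∈ B, ((g n : ℝ) : ℂ) * w m n‖ ^ 2 : ℝ) : ℂ) =
      ∑ n' ∈ B, ∑ n ∈ B, ((g n * g n' : ℝ) : ℂ) *
        ∑ m ∈ A, w m n * (starRingEnd ℂ) (w m n') := by
    push_cast
    have e1 : ∀ m ∈ A, ((‖∑ n ∈ B, ((g n : ℝ) : ℂ) * w m n‖ : ℝ) : ℂ) ^ 2 =
        ∑ n' ∈ B, ∑ n ∈ B, ((g n : ℂ) * g n') * (w m n * (starRingEnd ℂ) (w m n')) := by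
      intro m _
      rw [← Complex.mul_conj', map_sum, sum_mul_sum, sum_comm]
      refine sum_congr rfl fun n' _ => sum_congr rfl fun n _ => ?_
      rw [map_mul, Complex.conj_ofReal]; ring
    rw [sum_congr rfl e1, sum_comm]
    refine sum_congr rfl fun n' _ => ?_
    rw [sum_comm]
    refine sum_congr rfl fun n _ => ?_
    rw [mul_sum]
  have h3 : ∑ m ∈ A, ‖∑ n ∈ B, ((g n : ℝ) : ℂ) * w m n‖ ^ 2 ≤
      L ^ 2 * ∑ n' ∈ B, ∑ n ∈ B, ‖∑ m ∈ A, w m n * (starRingEnd ℂ) (w m n')‖ := by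
    have h4 := congrArg norm h2
    rw [Complex.norm_real, Real.norm_eq_abs,
      abs_of_nonneg (sum_nonneg fun _ _ => by positivity)] at h4
    rw [h4, mul_sum]
    refine (norm_sum_le _ _).trans (sum_le_sum fun n' hn' => ?_)
    rw [mul_sum]
    refine (norm_sum_le _ _).trans (sum_le_sum fun n hn => ?_)
    rw [norm_mul, Complex.norm_real, Real.norm_eq_abs, abs_mul, pow_two]
    gcongr
    · exact (abs_nonneg _).trans (hg n hn)
    · exact hg n hn
    · exact hg n' hn'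
  calc _ ≤ (∑ m ∈ A, ‖∑ n ∈ B, ((g n : ℝ) : ℂ) * w m n‖) ^ 2 := by gcongr
    _ ≤ A.card * ∑ m ∈ A, ‖∑ n ∈ B, ((g n : ℝ) : ℂ) * w m n‖ ^ 2 := sq_sum_le_card_mul_sum_sq
    _ ≤ _ := by gcongr

/-- the dilated polynomial `P (c x)` -/
noncomputable def dil (P : ℝ[X]) (c : ℝ) : ℝ[X] := P.comp (C c * X)

lemma dil_eval (P : ℝ[X]) (c x : ℝ) : (dil P c).eval x = P.eval (c * x) := by
  simp [dil, eval_comp]

lemma dil_coeff (P : ℝ[X]) (c : ℝ) (k : ℕ) : (dil P c).coeff k = P.coeff k * c ^ k :=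
  comp_C_mul_X_coeff

lemma dil_natDegree {P : ℝ[X]} {k : ℕ} (hP : P.natDegree ≤ k) (c : ℝ) :
    (dil P c).natDegree ≤ k := by
  rw [natDegree_le_iff_coeff_eq_zero] at hP ⊢
  intro N hN
  rw [dil_coeff, hP N hN, zero_mul]

/-- the end game of the type II estimate -/
lemma typeII_end {k C' : ℕ} (hk : 1 ≤ k) (hV : PolyVin k C') (C : ℕ) (β c : ℝ) (G : Finset ℕ)
    {D M N : ℝ} (hD : 2 ≤ D) (hM : D ^ ((C + 1) * (C' + 1)) ≤ M)
    (hN : D ^ ((C + 1) * (C' + 1)) ≤ N) (hG : ∀ n ∈ G, (n : ℝ) ≤ N) (hc : N ≤ D * G.card)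
    (h : ∀ n ∈ G, Appr (β * (n : ℝ) ^ k - c) (D ^ C) (D ^ C / M ^ k)) :
    Appr β (D ^ ((C + 1) * (C' + 1))) (D ^ ((C + 1) * (C' + 1)) / (M * N) ^ k) := by
  have hD1 : (1 : ℝ) ≤ D := by linarith
  have hM1 : 1 ≤ M := (one_le_pow₀ hD1).trans hM
  have hN1 : 1 ≤ N := (one_le_pow₀ hD1).trans hN
  obtain ⟨q, hq1, hq2, S, hS, hcS, hr⟩ := appr_pigeon G (fun n => β * (n : ℝ) ^ k - c)
    (one_le_pow₀ hD1) h
  have hD2 : 2 ≤ D ^ (C + 1) := hD.trans (le_self_pow₀ hD1 (by omega))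
  have hprod : D ^ C * (D ^ (C + 1)) ^ C' ≤ D ^ ((C + 1) * (C' + 1)) := by
    rw [← pow_mul, ← pow_add]
    exact pow_le_pow_right₀ hD1 (by nlinarith)
  have hcoeff : (Polynomial.C (q * β) * X ^ k - Polynomial.C (q * c) : ℝ[X]).coeff k = q * β := by
    rw [coeff_sub, coeff_C_mul_X_pow, if_pos rfl, coeff_C, if_neg (by omega), sub_zero]
  have key := hV (Polynomial.C (q * β) * X ^ k - Polynomial.C (q * c)) ?_
    (S.image (fun n : ℕ => (n : ℤ))) N (D ^ (C + 1)) (D ^ C / M ^ k) hD2 (by positivity)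
    ?_ ?_ ?_ ?_ ?_
  · rw [hcoeff] at key
    refine (key.of_mul hq1).mono (le_trans (by gcongr) hprod) ?_
    rw [mul_pow]
    calc (D ^ (C + 1)) ^ C' * (D ^ C / M ^ k) / N ^ k
        = D ^ C * (D ^ (C + 1)) ^ C' / (M ^ k * N ^ k) := by field_simp
      _ ≤ _ := by gcongr
  · refine (natDegree_sub_le _ _).trans (max_le (natDegree_C_mul_X_pow_le _ _) ?_)
    rw [natDegree_C]; omega
  · refine le_trans ?_ hN
    rw [← pow_mul]; exact pow_le_pow_right₀ hD1 (by nlinarith)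
  · rw [div_mul_eq_mul_div, div_le_one (by positivity)]
    exact hprod.trans (hM.trans (le_self_pow₀ hM1 (by omega)))
  · intro x hx y hy
    obtain ⟨x', _, rfl⟩ := mem_image.1 hx
    obtain ⟨y', hy', rfl⟩ := mem_image.1 hy
    have := hG y' (hS hy')
    push_cast
    linarith [Nat.cast_nonneg (α := ℝ) x']
  · rw [card_image_of_injective _ Nat.cast_injective]
    refine hc.trans ?_
    rw [pow_succ', mul_assoc]; gcongr
  · intro x hx
    obtain ⟨n, hn, rfl⟩ := mem_image.1 hx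
    obtain ⟨r, hr'⟩ := hr n hn
    refine ⟨r, ?_⟩
    convert hr' using 3
    simp; ring

/-- one dyadic block of a type II sum -/
lemma typeII_block {k C C' : ℕ} (hk : 1 ≤ k) (hW : WeylInv k C) (hV : PolyVin k C')
    (P : ℝ[X]) (hP : P.natDegree ≤ k) (a b : ℕ) (A B : Finset ℕ) (hA : Cvx A) (f g : ℕ → ℝ)
    {D M N : ℝ} (hD : 2 ≤ D) (hM : (D ^ 11) ^ ((C + 1) * (C' + 1)) ≤ M)
    (hN : (D ^ 11) ^ ((C + 1) * (C' + 1)) ≤ N) (hAc : (A.card : ℝ) ≤ M) (hBc : (B.card : ℝ) ≤ N)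
    (hB : ∀ n ∈ B, (n : ℝ) ≤ N) (hf : ∀ m ∈ A, |f m| ≤ 1) (hg : ∀ n ∈ B, |g n| ≤ D)
    (hT : M * N ≤ 3 * D ^ 2 * ‖∑ m ∈ A, ((f m : ℝ) : ℂ) * ∑ n ∈ B, ((g n : ℝ) : ℂ) *
      (if a < m * n ∧ m * n ≤ b then e (P.eval ((m * n : ℕ) : ℝ)) else 0)‖) :
    Appr (P.coeff k) ((D ^ 11) ^ ((C + 1) * (C' + 1)))
      ((D ^ 11) ^ ((C + 1) * (C' + 1)) / (M * N) ^ k) := by
  have hD1 : (1 : ℝ) ≤ D := by linarith
  have hD11 : 2 ≤ D ^ 11 := hD.trans (le_self_pow₀ hD1 (by omega))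
  have hM1 : 1 ≤ M := (one_le_pow₀ (by linarith)).trans hM
  have hN1 : 1 ≤ N := (one_le_pow₀ (by linarith)).trans hN
  set w : ℕ → ℕ → ℂ := fun m n =>
    if a < m * n ∧ m * n ≤ b then e (P.eval ((m * n : ℕ) : ℝ)) else 0 with hw
  set τ : ℕ → ℕ → ℝ := fun n' n => ‖∑ m ∈ A, w m n * (starRingEnd ℂ) (w m n')‖ with hτ
  have hτeq : ∀ n' n, τ n' n = ‖∑ m ∈ (A.filter (fun m => a < n * m ∧ n * m ≤ b)).filter
      (fun m => a < n' * m ∧ n' * m ≤ b), e ((dil P n - dil P n').eval (m : ℝ))‖ := by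
    intro n' n
    simp only [hτ, hw, sum_filter]
    congr 1
    refine sum_congr rfl fun m _ => ?_
    rw [mul_comm m n, mul_comm m n']
    split_ifs
    · rw [eval_sub, dil_eval, dil_eval, e_sub]; push_cast; rfl
    · simp
    · simp
    · simp
  have hτc : ∀ n' n, (((A.filter (fun m => a < n * m ∧ n * m ≤ b)).filter
      (fun m => a < n' * m ∧ n' * m ≤ b)).card : ℝ) ≤ M := fun n' n =>
    le_trans (by exact_mod_cast (card_filter_le _ _).trans (card_filter_le _ _)) hAc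
  have hcs := bilinear_cs A B f g w hf hg
  have hsum : N * (M * N / (9 * D ^ 6)) ≤ ∑ n' ∈ B, ∑ n ∈ B, τ n' n := by
    have h0 : 0 ≤ ∑ n' ∈ B, ∑ n ∈ B, τ n' n :=
      sum_nonneg fun _ _ => sum_nonneg fun _ _ => norm_nonneg _
    have h1 : (M * N) ^ 2 ≤ (3 * D ^ 2) ^ 2 * (M * (D ^ 2 * ∑ n' ∈ B, ∑ n ∈ B, τ n' n)) := by
      calc (M * N) ^ 2 ≤ (3 * D ^ 2 * ‖∑ m ∈ A, ((f m : ℝ) : ℂ) *
            ∑ n ∈ B, ((g n : ℝ) : ℂ) * w m n‖) ^ 2 := by gcongr
        _ = (3 * D ^ 2) ^ 2 * ‖∑ m ∈ A, ((f m : ℝ) : ℂ) *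
            ∑ n ∈ B, ((g n : ℝ) : ℂ) * w m n‖ ^ 2 := by rw [mul_pow]
        _ ≤ _ := by
            gcongr
            exact hcs.trans (by gcongr)
    rw [← mul_div_assoc, div_le_iff₀ (by positivity)]
    have h2 : M * (N * (M * N)) ≤ M * ((∑ n' ∈ B, ∑ n ∈ B, τ n' n) * (9 * D ^ 6)) := by
      nlinarith
    exact le_of_mul_le_mul_left h2 (by linarith)
  have hBne : B.Nonempty := by
    rw [nonempty_iff_ne_empty]
    rintro rfl
    have : 0 < N * (M * N / (9 * D ^ 6)) := by positivity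
    simp only [sum_empty] at hsum
    linarith
  obtain ⟨n', _, hn'⟩ : ∃ n' ∈ B, M * N / (9 * D ^ 6) ≤ ∑ n ∈ B, τ n' n := by
    refine exists_le_of_sum_le hBne (le_trans ?_ hsum)
    rw [sum_const, nsmul_eq_mul]; gcongr
  have hpop := popular B (τ n') (B := M) (t := M / (18 * D ^ 6)) (by positivity) hn'
    (fun n _ => by rw [hτeq]; exact (norm_sum_e_le _ _).trans (hτc n' n)) hBc
    (le_of_eq (by field_simp; ring))
  have h18 : 18 * D ^ 6 ≤ D ^ 11 := const_mul_pow_le hD 5 (by norm_num) (by norm_num)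
  refine typeII_end hk hV C (P.coeff k) (P.coeff k * (n' : ℝ) ^ k)
    (B.filter (fun n => M / (18 * D ^ 6) ≤ τ n' n)) hD11 hM hN
    (fun n hn => hB n (mem_filter.1 hn).1) ?_ ?_
  · rw [div_div, div_le_iff₀ (by positivity)] at hpop
    have h2 : M * N ≤ M * (18 * D ^ 6 *
        ((B.filter (fun n => M / (18 * D ^ 6) ≤ τ n' n)).card : ℝ)) := by nlinarith
    exact (le_of_mul_le_mul_left h2 (by linarith)).trans (by gcongr)
  · intro n hn
    have h1 := (mem_filter.1 hn).2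
    rw [div_le_iff₀ (by positivity), hτeq] at h1
    have := hW.nat (dil P n - dil P n') ((natDegree_sub_le _ _).trans
      (max_le (dil_natDegree hP _) (dil_natDegree hP _))) _
      ((hA.filter_mul a b n).filter_mul a b n') hD11 (by linarith) (hτc n' n)
      (h1.trans (by rw [mul_comm]; gcongr))
    rwa [coeff_sub, dil_coeff, dil_coeff] at this

lemma natLog_le {b : ℕ} {D : ℝ} (hD : 2 ≤ D) (hb : 1 ≤ b) (hL : Real.log b ≤ D) :
    ((Nat.log 2 b + 1 : ℕ) : ℝ) ≤ 3 * D := by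
  have h1 : 2 ^ Nat.log 2 b ≤ b := Nat.pow_log_le_self 2 (by omega)
  have h2 : ((2 : ℝ)) ^ Nat.log 2 b ≤ b := by exact_mod_cast h1
  have h3 := Real.log_le_log (by positivity) h2
  rw [Real.log_pow] at h3
  have h4 := Real.log_two_gt_d9
  have h5 : (0 : ℝ) ≤ Nat.log 2 b := Nat.cast_nonneg _
  push_cast
  nlinarith

/-- **Type II estimate** in inverse form -/
lemma typeII {k C C' : ℕ} (hk : 1 ≤ k) (hW : WeylInv k C) (hV : PolyVin k C')
    (P : ℝ[X]) (hP : P.natDegree ≤ k) (a b U : ℕ) (f g : ℕ → ℝ) {D X : ℝ} (hD : 2 ≤ D)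
    (hX : 0 < X) (hb : (b : ℝ) ≤ X) (hL : Real.log b ≤ D)
    (hU : 2 * (D ^ 11) ^ ((C + 1) * (C' + 1)) ≤ U) (hf : ∀ m, |f m| ≤ 1)
    (hfU : ∀ m, m ≤ U → f m = 0) (hg : ∀ n ∈ Ioc 0 b, |g n| ≤ D) (hgU : ∀ n, n ≤ U → g n = 0)
    (hT : X ≤ D * ‖∑ m ∈ Ioc 0 b, ((f m : ℝ) : ℂ) *
      ∑ n ∈ (Ioc 0 b).filter (fun n => a < m * n ∧ m * n ≤ b),
        ((g n : ℝ) : ℂ) * e (P.eval ((m * n : ℕ) : ℝ))‖) :
    Appr (P.coeff k) ((D ^ 11) ^ ((C + 1) * (C' + 1)))
      ((D ^ 11) ^ ((C + 1) * (C' + 1)) / X ^ k) := by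
  set F : ℕ → ℂ := fun m => ((f m : ℝ) : ℂ) *
      ∑ n ∈ (Ioc 0 b).filter (fun n => a < m * n ∧ m * n ≤ b),
        ((g n : ℝ) : ℂ) * e (P.eval ((m * n : ℕ) : ℝ)) with hF
  have hb1 : 1 ≤ b := by
    by_contra h
    obtain rfl : b = 0 := by omega
    simp at hT; linarith
  have hmaps : ∀ m ∈ Ioc 0 b, Nat.log 2 m ∈ range (Nat.log 2 b + 1) := fun m hm =>
    mem_range.2 (Nat.lt_succ_of_le (Nat.log_mono_right (mem_Ioc.1 hm).2))
  rw [← sum_fiberwise_of_maps_to hmaps] at hT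
  have hJ := natLog_le hD hb1 hL
  obtain ⟨j, _, hj⟩ : ∃ j ∈ range (Nat.log 2 b + 1), X / (3 * D ^ 2) ≤
      ‖∑ m ∈ (Ioc 0 b).filter (fun m => Nat.log 2 m = j), F m‖ := by
    refine exists_le_of_sum_le ⟨0, by simp⟩ (le_trans ?_ (norm_sum_le _ _))
    rw [sum_const, nsmul_eq_mul, card_range]
    calc ((Nat.log 2 b + 1 : ℕ) : ℝ) * (X / (3 * D ^ 2)) ≤ 3 * D * (X / (3 * D ^ 2)) := by gcongr
      _ = X / D := by field_simp
      _ ≤ _ := by rw [div_le_iff₀ (by linarith), mul_comm]; exact hT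
  set A := (Ioc 0 b).filter (fun m => Nat.log 2 m = j) with hA
  have hAmem : ∀ m ∈ A, 2 ^ j ≤ m ∧ m < 2 * 2 ^ j := by
    intro m hm
    rw [hA, mem_filter, mem_Ioc] at hm
    have h1 := Nat.pow_log_le_self 2 (x := m) (by omega)
    have h2 := Nat.lt_pow_succ_log_self (b := 2) (by norm_num) m
    rw [hm.2] at h1 h2
    exact ⟨h1, by rw [pow_succ] at h2; omega⟩
  have hAcvx : Cvx A := by
    intro x hx z hz y h1 h2
    rw [hA, mem_filter] at hx hz ⊢
    refine ⟨cvx_Ioc 0 b x hx.1 z hz.1 y h1 h2, le_antisymm ?_ ?_⟩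
    · rw [← hz.2]; exact Nat.log_mono_right h2
    · rw [← hx.2]; exact Nat.log_mono_right h1
  set B := (Ioc 0 b).filter (fun n => U < n ∧ 2 ^ j * n ≤ b) with hB
  have hM0 : (0 : ℝ) < ((2 ^ j : ℕ) : ℝ) := by positivity
  have hBle : ∀ n ∈ B, (n : ℝ) ≤ X / ((2 ^ j : ℕ) : ℝ) := by
    intro n hn
    rw [le_div_iff₀ hM0, mul_comm]
    exact le_trans (by exact_mod_cast (mem_filter.1 hn).2.2) hb
  have hFeq : ∀ m ∈ A, F m = ((f m : ℝ) : ℂ) * ∑ n ∈ B, ((g n : ℝ) : ℂ) *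
      (if a < m * n ∧ m * n ≤ b then e (P.eval ((m * n : ℕ) : ℝ)) else 0) := by
    intro m hm
    simp only [hF, hB, sum_filter]
    congr 1
    refine sum_congr rfl fun n _ => ?_
    by_cases h1 : a < m * n ∧ m * n ≤ b
    · rw [if_pos h1, if_pos h1]
      split_ifs with h2
      · rfl
      · have h3 : 2 ^ j * n ≤ b := le_trans (Nat.mul_le_mul_right n (hAmem m hm).1) h1.2
        rw [hgU n (by by_contra h; exact h2 ⟨by omega, h3⟩)]; simp
    · rw [if_neg h1, if_neg h1]; simp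
  rw [sum_congr rfl hFeq] at hj
  have hpos : 0 < X / (3 * D ^ 2) := by positivity
  have hMU : U < 2 * 2 ^ j := by
    by_contra h
    rw [sum_eq_zero (fun m hm => by rw [hfU m (by have := (hAmem m hm).2; omega)]; simp)] at hj
    simp only [norm_zero] at hj
    linarith
  have hBne : B.Nonempty := by
    rw [nonempty_iff_ne_empty]
    intro h
    rw [h] at hj
    simp only [sum_empty, mul_zero, sum_const_zero, norm_zero] at hj
    linarith
  obtain ⟨n₀, hn₀⟩ := hBne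
  have hpw : (0 : ℝ) ≤ (D ^ 11) ^ ((C + 1) * (C' + 1)) := by positivity
  have hXeq : ((2 ^ j : ℕ) : ℝ) * (X / ((2 ^ j : ℕ) : ℝ)) = X := by field_simp
  have key := typeII_block hk hW hV P hP a b A B hAcvx f g (M := ((2 ^ j : ℕ) : ℝ))
    (N := X / ((2 ^ j : ℕ) : ℝ)) hD ?_ ?_ ?_ ?_ hBle (fun m _ => hf m)
    (fun n hn => hg n (mem_filter.1 hn).1) ?_
  · rwa [hXeq] at key
  · have : (U : ℝ) ≤ 2 * ((2 ^ j : ℕ) : ℝ) := by exact_mod_cast hMU.le
    linarith
  · have h1 : (U : ℝ) ≤ n₀ := by exact_mod_cast (mem_filter.1 hn₀).2.1.le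
    linarith [hBle n₀ hn₀]
  · have : A ⊆ Ico (2 ^ j) (2 * 2 ^ j) := fun m hm => mem_Ico.2 (hAmem m hm)
    have h1 := card_le_card this
    rw [Nat.card_Ico] at h1
    exact_mod_cast (by omega : A.card ≤ 2 ^ j)
  · have : B ⊆ Ioc 0 ⌊X / ((2 ^ j : ℕ) : ℝ)⌋₊ := fun n hn =>
      mem_Ioc.2 ⟨(mem_Ioc.1 (mem_filter.1 hn).1).1, Nat.le_floor (hBle n hn)⟩
    have h1 := card_le_card this
    rw [Nat.card_Ioc, Nat.sub_zero] at h1
    exact le_trans (by exact_mod_cast h1) (Nat.floor_le (by positivity))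
  · rw [hXeq]
    rw [div_le_iff₀ (by positivity), mul_comm] at hj
    exact hj

end Crest.Agent.N41.Exp
end

-- ▼ part N41/Exp/Main

/-!
# Row 41, module EXP, part 5 (helper98)
The Weyl inverse theorem over primes, progressions, and `WeylStmt`.
-/

set_option autoImplicit false

open Finset Polynomial

namespace Crest.Agent.N41.Exp

/-- the statement of the Weyl inverse theorem over primes -/
def PrimeWeylInv (k C : ℕ) : Prop :=
  ∀ P : ℝ[X], P.natDegree ≤ k → ∀ (a b : ℕ) (X D : ℝ), 2 ≤ D → 0 < X → (b : ℝ) ≤ X →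
    Real.log b ≤ D →
    X ≤ D * ‖∑ n ∈ Ioc a b, ((ArithmeticFunction.vonMangoldt n : ℝ) : ℂ) * e (P.eval (n : ℝ))‖ →
    Appr (P.coeff k) (D ^ C) (D ^ C / X ^ k)

theorem exists_primeWeylInv (k : ℕ) (hk : 1 ≤ k) : ∃ C, PrimeWeylInv k C := by
  obtain ⟨C, hW⟩ := exists_weylInv k hk
  obtain ⟨C', hV⟩ := exists_polyVin k
  set A : ℕ := 22 * ((C + 1) * (C' + 1)) + 2 with hA
  refine ⟨(2 * A + 5) * (C + k), ?_⟩
  intro P hP a b X D hD hX hb hL hS
  have hD1 : (1 : ℝ) ≤ D := by linarith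
  rcases le_or_gt X (D ^ (A + 4)) with hsm | hbig
  · exact appr_small _ hD hX hsm (by nlinarith)
  -- the truncation parameter
  set Y : ℝ := ((D ^ 2) ^ 11) ^ ((C + 1) * (C' + 1)) with hY
  have hY1 : 1 ≤ Y := one_le_pow₀ (one_le_pow₀ (one_le_pow₀ hD1))
  set U : ℕ := ⌈2 * Y⌉₊ with hU
  have hU1 : 2 * Y ≤ U := Nat.le_ceil _
  have hU2 : (U : ℝ) ≤ D ^ A := by
    have h1 : (U : ℝ) < 2 * Y + 1 := Nat.ceil_lt_add_one (by linarith)
    have h2 : Y = D ^ (22 * ((C + 1) * (C' + 1))) := by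
      rw [hY, ← pow_mul, ← pow_mul, ← mul_assoc]; norm_num
    have h3 := const_mul_pow_le hD (c := 4) (a := 22 * ((C + 1) * (C' + 1))) (b := A) 2
      (by norm_num) (by omega)
    rw [← h2] at h3
    linarith
  have hU3 : 1 ≤ U := by
    have : (1 : ℝ) ≤ U := by linarith
    exact_mod_cast this
  by_cases hI : ∃ d, 1 ≤ d ∧ d ≤ U * U ∧ ∃ I : Finset ℕ, Cvx I ∧ I ⊆ Ioc 0 b ∧
      X / D ^ (2 * A + 5) < ‖∑ m ∈ I, e (P.eval ((d * m : ℕ) : ℝ))‖
  · obtain ⟨d, hd1, hd2, I, hI1, hI2, hI3⟩ := hI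
    have hD' : 2 ≤ D ^ (2 * A + 5) := hD.trans (le_self_pow₀ hD1 (by omega))
    have hc : (I.card : ℝ) ≤ X := by
      have := card_le_card hI2
      rw [Nat.card_Ioc, Nat.sub_zero] at this
      exact le_trans (by exact_mod_cast this) hb
    have key := hW.nat (dil P d) (dil_natDegree hP _) I hI1 hD' hX hc (by
      rw [div_lt_iff₀ (by positivity), mul_comm] at hI3
      simp only [dil_eval]
      push_cast at hI3
      exact hI3.le)
    rw [dil_coeff, mul_comm, ← Nat.cast_pow] at key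
    have hdk : (((d ^ k : ℕ) : ℝ)) ≤ (D ^ (2 * A + 5)) ^ k := by
      push_cast
      gcongr
      calc (d : ℝ) ≤ U * U := by exact_mod_cast hd2
        _ ≤ D ^ A * D ^ A := by gcongr
        _ = D ^ (2 * A) := by ring
        _ ≤ _ := pow_le_pow_right₀ hD1 (by omega)
    refine (key.of_mul (Nat.one_le_pow _ _ hd1)).mono ?_ ?_
    · rw [pow_mul, pow_add (D ^ (2 * A + 5)), mul_comm]; gcongr
    · rw [pow_mul]
      exact div_le_div_of_nonneg_right (pow_le_pow_right₀ (by linarith) (by omega))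
        (by positivity)
  push Not at hI
  have h1 := typeI_bound (fun n => e (P.eval (n : ℝ))) (fun n => (norm_e _).le) a b U hU3 hD1 hL
    (B := X / D ^ (2 * A + 5)) (by positivity) hI
  have hsplit : ∑ n ∈ Ioc a b, ((ArithmeticFunction.vonMangoldt n : ℝ) : ℂ) * e (P.eval (n : ℝ)) =
      ∑ n ∈ Ioc a b, (((trunc ArithmeticFunction.vonMangoldt U +
        trunc muR U * ArithmeticFunction.log -
        (trunc muR U * trunc ArithmeticFunction.vonMangoldt U) * zeR) n : ℝ) : ℂ) *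
          e (P.eval (n : ℝ)) +
      ∑ n ∈ Ioc a b, ((((muR - trunc muR U) * ((ArithmeticFunction.vonMangoldt -
        trunc ArithmeticFunction.vonMangoldt U) * zeR)) n : ℝ) : ℂ) * e (P.eval (n : ℝ)) := by
    rw [← sum_add_distrib]
    refine sum_congr rfl fun n _ => ?_
    conv_lhs => rw [vaughan U]
    rw [ArithmeticFunction.add_apply, Complex.ofReal_add, add_mul]
  have hsmall : D * (U * D + 2 * (U * U * (D * (X / D ^ (2 * A + 5))))) ≤ X / 2 := by
    have e1 : D * (U * D) ≤ X / 4 := by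
      have := const_mul_pow_le hD (c := 4) (a := A + 2) (b := A + 4) 2 (by norm_num) (by omega)
      calc D * (U * D) ≤ D * (D ^ A * D) := by gcongr
        _ = D ^ (A + 2) := by ring
        _ ≤ X / 4 := by linarith
    have e2 : D * (2 * (U * U * (D * (X / D ^ (2 * A + 5))))) ≤ X / 4 := by
      have h8 := const_mul_pow_le hD (c := 8) (a := 2 * A + 2) (b := 2 * A + 5) 3 (by norm_num)
        (by omega)
      calc D * (2 * (U * U * (D * (X / D ^ (2 * A + 5)))))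
          ≤ D * (2 * (D ^ A * D ^ A * (D * (X / D ^ (2 * A + 5))))) := by gcongr
        _ = X / 4 * (8 * D ^ (2 * A + 2) / D ^ (2 * A + 5)) := by field_simp; ring
        _ ≤ X / 4 * 1 := by
            gcongr
            rwa [div_le_one (by positivity)]
        _ = X / 4 := mul_one _
    linarith
  rw [hsplit, sum_conv (muR - trunc muR U)] at hS
  have hD2 : 2 ≤ D ^ 2 := by nlinarith
  have hvm : ∀ n, |ArithmeticFunction.vonMangoldt n| = ArithmeticFunction.vonMangoldt n :=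
    fun n => abs_of_nonneg ArithmeticFunction.vonMangoldt_nonneg
  have key := typeII hk hW hV P hP a b U (fun m => (muR - trunc muR U) m)
    (fun n => ((ArithmeticFunction.vonMangoldt - trunc ArithmeticFunction.vonMangoldt U) * zeR) n)
    (D := D ^ 2) (X := X) hD2 hX hb (by nlinarith) hU1
    (fun m => (abs_sub_trunc_le _ _ _).trans (abs_muR_le m))
    (fun m hm => by rw [sub_trunc_apply, if_pos hm]) ?_
    (fun n hn => sub_trunc_mul_eq_zero _ _ U n hn) ?_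
  · have hexp : Y ≤ D ^ ((2 * A + 5) * (C + k)) := by
      refine le_trans (by linarith : Y ≤ D ^ A) (pow_le_pow_right₀ hD1 (by nlinarith))
    exact key.mono hexp (div_le_div_of_nonneg_right hexp (by positivity))
  · intro n hn
    rw [mul_comm, mem_Ioc] at *
    refine (abs_conv_le_log _ _ (fun m => ?_)
      (fun m => (abs_sub_trunc_le _ _ _).trans (hvm m).le) n).trans ?_
    · rcases Nat.eq_zero_or_pos m with rfl | hm
      · simp
      · rw [zeR_apply (by omega)]; simp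
    · have : Real.log n ≤ Real.log b :=
        Real.log_le_log (by exact_mod_cast hn.1) (by exact_mod_cast hn.2)
      nlinarith
  · have h2 := hS.trans (mul_le_mul_of_nonneg_left (norm_add_le _ _) (by linarith))
    have h3 := mul_le_mul_of_nonneg_left h1 (by linarith : (0 : ℝ) ≤ D)
    rw [mul_add] at h2
    set T := ‖∑ m ∈ Ioc 0 b, (((muR - trunc muR U) m : ℝ) : ℂ) *
      ∑ n ∈ (Ioc 0 b).filter (fun n => a < m * n ∧ m * n ≤ b),
        ((((ArithmeticFunction.vonMangoldt - trunc ArithmeticFunction.vonMangoldt U) * zeR) n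
          : ℝ) : ℂ) * e (P.eval ((m * n : ℕ) : ℝ))‖ with hT
    have hT0 : 0 ≤ T := norm_nonneg _
    have h4 : X / 2 ≤ D * T := by linarith
    nlinarith

/-- orthogonality of additive characters -/
lemma sum_e_div (m : ℕ) (hm : 1 ≤ m) (t : ℤ) :
    ∑ j ∈ range m, e ((j : ℝ) * ((t : ℝ) / m)) = if (m : ℤ) ∣ t then (m : ℂ) else 0 := by
  have hm0 : (m : ℝ) ≠ 0 := by positivity
  simp only [e_nat_mul]
  split_ifs with h
  · obtain ⟨s, rfl⟩ := h
    have : ((((m : ℤ) * s : ℤ) : ℝ)) / m = (s : ℝ) := by push_cast; field_simp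
    rw [this, e_int]; simp
  · have h1 : e ((t : ℝ) / m) ≠ 1 := by
      intro h1
      have h2 := four_mul_le_norm_e_sub_one ((t : ℝ) / m)
      rw [h1, sub_self, norm_zero] at h2
      have h3 : (t : ℝ) / m - round ((t : ℝ) / m) = 0 :=
        abs_eq_zero.1 (le_antisymm (by linarith) (abs_nonneg _))
      rw [sub_eq_zero, div_eq_iff hm0] at h3
      exact h ⟨round ((t : ℝ) / m), by rw [mul_comm]; exact_mod_cast h3⟩
    have h2 := mul_geom_sum (e ((t : ℝ) / m)) m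
    rw [← e_nat_mul, mul_div_cancel₀ _ hm0, e_int, sub_self] at h2
    exact (mul_eq_zero.1 h2).resolve_left (sub_ne_zero.2 h1)

/-- a congruence condition is removed by changing the linear coefficient -/
lemma exists_linear_twist (I : Finset ℕ) (c : ℕ → ℂ) (P : ℝ[X]) (m ρ : ℕ) (hm : 1 ≤ m) :
    ∃ γ : ℝ, ‖∑ n ∈ I.filter (fun n => n ≡ ρ [MOD m]), c n * e (P.eval (n : ℝ))‖ ≤
      ‖∑ n ∈ I, c n * e ((P + C γ * X).eval (n : ℝ))‖ := by
  have hm0 : (0 : ℝ) < m := by exact_mod_cast hm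
  have h1 : (m : ℂ) * ∑ n ∈ I.filter (fun n => n ≡ ρ [MOD m]), c n * e (P.eval (n : ℝ)) =
      ∑ j ∈ range m, e (-((j : ℝ) * ρ / m)) *
        ∑ n ∈ I, c n * e ((P + C ((j : ℝ) / m) * X).eval (n : ℝ)) := by
    simp only [mul_sum, sum_filter]
    rw [sum_comm]
    refine sum_congr rfl fun n _ => ?_
    have h2 := sum_e_div m hm ((n : ℤ) - ρ)
    have h3 : ∀ j ∈ range m, e (-((j : ℝ) * ρ / m)) *
        (c n * e ((P + C ((j : ℝ) / m) * X).eval (n : ℝ))) =
        e ((j : ℝ) * ((((n : ℤ) - ρ : ℤ) : ℝ) / m)) * (c n * e (P.eval (n : ℝ))) := by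
      intro j _
      rw [eval_add, eval_mul, eval_C, eval_X, e_add]
      have : e ((j : ℝ) * ((((n : ℤ) - ρ : ℤ) : ℝ) / m)) =
          e (-((j : ℝ) * ρ / m)) * e ((j : ℝ) / m * n) := by
        rw [← e_add]; congr 1; push_cast; ring
      rw [this]; ring
    rw [sum_congr rfl h3, ← sum_mul, h2]
    have h4 : (m : ℤ) ∣ (n : ℤ) - ρ ↔ n ≡ ρ [MOD m] := by
      rw [← Nat.modEq_iff_dvd]; exact ⟨Nat.ModEq.symm, Nat.ModEq.symm⟩
    by_cases h : n ≡ ρ [MOD m]
    · rw [if_pos h, if_pos (h4.2 h)]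
    · rw [if_neg h, if_neg (mt h4.1 h)]; simp
  obtain ⟨j, _, hj⟩ : ∃ j ∈ range m,
      ‖∑ n ∈ I.filter (fun n => n ≡ ρ [MOD m]), c n * e (P.eval (n : ℝ))‖ ≤
      ‖∑ n ∈ I, c n * e ((P + C ((j : ℝ) / m) * X).eval (n : ℝ))‖ := by
    refine exists_le_of_sum_le ⟨0, mem_range.2 hm⟩ ?_
    rw [sum_const, card_range, nsmul_eq_mul]
    have h5 := congrArg norm h1
    rw [norm_mul, Complex.norm_natCast] at h5
    rw [h5]
    refine (norm_sum_le _ _).trans (le_of_eq (sum_congr rfl fun j _ => ?_))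
    rw [norm_mul, norm_e, one_mul]
  exact ⟨_, hj⟩

lemma twist_natDegree {P : ℝ[X]} {k : ℕ} (hk : 1 ≤ k) (hP : P.natDegree ≤ k) (γ : ℝ) :
    (P + C γ * X).natDegree ≤ k := by
  refine (natDegree_add_le _ _).trans (max_le hP ?_)
  exact (natDegree_C_mul_le _ _).trans (natDegree_X_le.trans hk)

lemma twist_coeff (P : ℝ[X]) {k : ℕ} (hk : 2 ≤ k) (γ : ℝ) :
    (P + C γ * X).coeff k = P.coeff k := by
  rw [coeff_add, coeff_C_mul, coeff_X_of_ne_one (by omega), mul_zero, add_zero]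

/-- **Module D1** of the skeleton. -/
theorem weylStmt (pr : Bool) : WeylStmt pr := by
  intro k hk
  obtain ⟨C₁, hW⟩ := exists_weylInv k (by omega)
  obtain ⟨C₂, hP⟩ := exists_primeWeylInv k (by omega)
  refine ⟨if pr = true then C₂ else C₁, ?_⟩
  intro Q a b m ρ X δ hQ hm hδ hδ2 hX hb hlog hS
  have hD : 2 ≤ 1 / δ := by rw [le_div_iff₀ hδ]; linarith
  obtain ⟨γ, hγ⟩ := exists_linear_twist (Ioc a b) (fun n => (wt pr n : ℂ)) Q m ρ hm
  have hS' : X ≤ 1 / δ *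
      ‖∑ n ∈ Ioc a b, (wt pr n : ℂ) * e ((Q + C γ * Polynomial.X).eval (n : ℝ))‖ := by
    rw [one_div, ← div_eq_inv_mul, le_div_iff₀ hδ, mul_comm]
    exact hS.trans hγ
  have hfin : Appr (Q.coeff k) ((1 / δ) ^ (if pr = true then C₂ else C₁))
      ((1 / δ) ^ (if pr = true then C₂ else C₁) / X ^ k) := by
    rw [← twist_coeff Q hk γ]
    cases pr with
    | true =>
      simp only [wt, if_true] at hS' ⊢
      refine hP _ (twist_natDegree (by omega) hQ γ) a b X (1 / δ) hD (by linarith) hb ?_ hS'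
      rcases Nat.eq_zero_or_pos b with rfl | hb0
      · simp; positivity
      · rw [le_div_iff₀ hδ, mul_comm]
        refine le_trans ?_ hlog
        gcongr
    | false =>
      simp only [wt, Bool.false_eq_true, if_false, Complex.ofReal_one, one_mul] at hS' ⊢
      refine hW.nat _ (twist_natDegree (by omega) hQ γ) (Ioc a b) (cvx_Ioc a b) hD (by linarith)
        ?_ hS'
      rw [Nat.card_Ioc]
      exact le_trans (by exact_mod_cast Nat.sub_le b a) hb
  obtain ⟨q, hq1, hq2, z, hz⟩ := hfin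
  exact ⟨q, z, hq1, hq2, hz⟩

end Crest.Agent.N41.Exp
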